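import Vale.Agent.P284.H248.Sec
import Vale.Agent.P299.H956.D1.Bridge

/-!
# P284: pull back of the descended line bundle by a holomorphic map `f : X → Z`
-/

open scoped Manifold ContDiff Topology
open Filter Set
open Vale.Agent.P272.K Vale.Agent.P272.KOD Vale.Agent.P285.H281 Vale.Agent.P285.H766
  Vale.Agent.P284.H248
open Vale.Agent.P272.K.QN (jm)
open Vale.Agent.P299.H956 (rep_hol nhds_at_map at_chartAt jmR jmR_mulVec mfderiv_eq_jacF jacF_eq)

noncomputable section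

namespace Vale.Agent.P284.R3.H348

section general
variable {d : ℕ} {Z : Type} [TopologicalSpace Z] [ChartedSpace (Cm d) Z]
  [IsManifold 𝓘(ℂ, Cm d) ω Z]
  {n : ℕ} {X : Type} [TopologicalSpace X] [ChartedSpace (Cm n) X] [IsManifold 𝓘(ℂ, Cm n) ω X]
  {f : X → Z} {x : X} {e : Chart n X}

/-- composition with a holomorphic map, in charts -/
theorem comp_holo {E : Type*} [NormedAddCommGroup E] [NormedSpace ℂ E] {F : Z → E}
    (hf : ContMDiff 𝓘(ℂ, Cm n) 𝓘(ℂ, Cm d) ω f) (he : At e x)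
    (h : ∀ c : Chart d Z, At c (f x) → ContDiffAt ℂ ω (fun w => F (c.symm w)) (c (f x))) :
    ContDiffAt ℂ ω (fun u => F (f (e.symm u))) (e x) := by
  have hc := at_chartAt (n := d) (f x)
  set c := chartAt (Cm d) (f x) with hcdef
  have h1 : ContDiffAt ℂ ω (fun w => F (c.symm w)) ((fun u => c (f (e.symm u))) (e x)) := by
    simp only [he.left_inv]
    exact h c hc
  have h2 : ContDiffAt ℂ ω (fun u => c (f (e.symm u))) (e x) := rep_hol hf.contMDiffAt he hc
  refine (ContDiffAt.comp (e x) (g := fun w => F (c.symm w)) h1 h2).congr_of_eventuallyEq ?_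
  filter_upwards [nhds_at_map hf.continuous.continuousAt he hc] with u hu
  show F (f (e.symm u)) = F (c.symm (c (f (e.symm u))))
  rw [hu.2.2.left_inv]

/-- pull back of a line bundle -/
def pull (L : LineBundle d Z) (hf : ContMDiff 𝓘(ℂ, Cm n) 𝓘(ℂ, Cm d) ω f) : LineBundle n X where
  ι := L.ι
  U i := f ⁻¹' L.U i
  isOpen i := (L.isOpen i).preimage hf.continuous
  cover x := L.cover (f x)
  g i j x := L.g i j (f x)
  holo i j e x he hi hj := comp_holo hf he fun c hc => L.holo i j c (f x) hc hi hj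
  ne_zero i j x hi hj := L.ne_zero i j (f x) hi hj
  cocycle i j k x hi hj hk := L.cocycle i j k (f x) hi hj hk

/-- pull back of a section -/
def pullSec {L : LineBundle d Z} (hf : ContMDiff 𝓘(ℂ, Cm n) 𝓘(ℂ, Cm d) ω f) {m : ℕ}
    (s : Sec L m) : Sec (pull L hf) m where
  f i x := s.f i (f x)
  holo i e x he hi := comp_holo hf he fun c hc => s.holo i c (f x) hc hi
  change i j x hi hj := s.change i j (f x) hi hj

end general

variable {V : Type} [NormedAddCommGroup V] [InnerProductSpace ℂ V] {ν : ℕ} {Y : Type}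
  [TopologicalSpace Y] [ChartedSpace (Cm ν) Y] {Γ : Type} [Group Γ] {D : Dat V ν Y Γ}
  {d : ℕ} {Z : Type} [TopologicalSpace Z] [ChartedSpace (Cm d) Z] [IsManifold 𝓘(ℂ, Cm d) ω Z]
  {C : Cov D d Z}
  {n : ℕ} {X : Type} [TopologicalSpace X] [ChartedSpace (Cm n) X] [IsManifold 𝓘(ℂ, Cm n) ω X]
  {f : X → Z} {a b : V × Y} {x : X} {γ : Γ} {e : Chart n X}

/-- the local map `X → Y` in charts -/
def Q (C : Cov D d Z) (f : X → Z) (a : V × Y) (e : Chart n X) (u : Cm n) : Cm ν :=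
  chartAt (Cm ν) a.2 (C.q a (f (e.symm u)))

theorem holo_Q (hf : ContMDiff 𝓘(ℂ, Cm n) 𝓘(ℂ, Cm d) ω f) (ha : f x ∈ C.dom a) (he : At e x) :
    ContDiffAt ℂ ω (Q C f a e) (e x) :=
  comp_holo (F := fun z => chartAt (Cm ν) a.2 (C.q a z)) hf he fun _ hc => Cov.holo_q ha hc

theorem Q_self (he : At e x) : Q C f a e (e x) = chartAt (Cm ν) a.2 (C.q a (f x)) := by
  rw [Q, he.left_inv]

theorem ev_f {P : Z → Prop} (hf : ContMDiff 𝓘(ℂ, Cm n) 𝓘(ℂ, Cm d) ω f)
    (h : ∀ᶠ z in 𝓝 (f x), P z) (he : At e x) : ∀ᶠ u in 𝓝 (e x), P (f (e.symm u)) :=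
  Cov.nhds_symm' (P := fun x' => P (f x')) (hf.continuous.continuousAt.eventually h) he

/-- relation between the maps of two local sections -/
theorem Q_rel (hf : ContMDiff 𝓘(ℂ, Cm n) 𝓘(ℂ, Cm d) ω f) (ha : f x ∈ C.dom a)
    (hb : f x ∈ C.dom b) (h : act D γ (C.σ a (f x)) = C.σ b (f x)) (he : At e x) :
    ∀ᶠ u in 𝓝 (e x), Q C f b e u =
      rep (chartAt (Cm ν) a.2) (chartAt (Cm ν) b.2) (D.h γ) (Q C f a e u) := by
  filter_upwards [ev_f hf (C.tr_eventually ha hb h) he,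
    ev_f hf ((C.isOpen_dom a).mem_nhds ha) he] with u hu hu'
  rw [Q, Q, rep_apply D (C.at_q hu'), Cov.h_q hu]

variable [IsManifold 𝓘(ℂ, Cm ν) ω Y]

/-- The inclusion `f^*L → Ω_X^ν`. -/
def morf (C : Cov D d Z) (hf : ContMDiff 𝓘(ℂ, Cm n) 𝓘(ℂ, Cm d) ω f) : Mor (pull C.LB hf) ν where
  form a e z := (Cov.vol ν).compLinearMap (fderiv ℂ (Q C f a e) z).toLinearMap
  holo a e x he ha v := by
    have h1 := holo_Q (C := C) (a := a) hf ha he
    have h2 : ContDiffAt ℂ ω (fderiv ℂ (Q C f a e)) (e x) :=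
      h1.fderiv_right (m := ω) (by exact le_top)
    refine P285.H266.cd_det fun i j => ?_
    have h3 : ContDiffAt ℂ ω (fun z => fderiv ℂ (Q C f a e) z (v i)) (e x) :=
      h2.clm_apply contDiffAt_const
    exact (contDiffAt_pi.1 h3) j
  change a e e' x he he' ha := by
    have h1 : Q C f a e =ᶠ[𝓝 (e x)] Q C f a e' ∘ (fun u => e' (e.symm u)) := by
      filter_upwards [he.nhds_at he'] with u hu
      simp only [Function.comp, Q]
      rw [e'.left_inv hu.2.2.2]
    have h2 : (fun u => e' (e.symm u)) (e x) = e' x := by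
      simp only [he.left_inv]
    have h3 : DifferentiableAt ℂ (Q C f a e') ((fun u => e' (e.symm u)) (e x)) := by
      rw [h2]
      exact (holo_Q (C := C) (a := a) hf ha he').differentiableAt (by simp)
    have h4 := fderiv_comp (e x) (f := fun u => e' (e.symm u)) (g := Q C f a e') h3
      (transition_differentiableAt he he')
    rw [h1.fderiv_eq, h4]
    simp only [he.left_inv]
    rfl
  glue a b e x he ha hb := by
    obtain ⟨γ, h⟩ := C.exists_tr ha hb
    have h1 : Q C f b e =ᶠ[𝓝 (e x)]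
        (rep (chartAt (Cm ν) a.2) (chartAt (Cm ν) b.2) (D.h γ)) ∘ Q C f a e := Q_rel hf ha hb h he
    have h2 : Q C f a e (e x) = chartAt (Cm ν) a.2 (C.q a (f x)) := Q_self he
    have h3 : DifferentiableAt ℂ (rep (chartAt (Cm ν) a.2) (chartAt (Cm ν) b.2) (D.h γ))
        (Q C f a e (e x)) := by
      rw [h2]
      exact rep_diff D (C.at_q ha) (Cov.at_hq hb h)
    have h0 := fderiv_comp (e x) (f := Q C f a e)
      (g := rep (chartAt (Cm ν) a.2) (chartAt (Cm ν) b.2) (D.h γ)) h3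
      ((holo_Q (C := C) (a := a) hf ha he).differentiableAt (by simp))
    rw [h1.fderiv_eq, h0, h2]
    have h4 : (((fderiv ℂ (rep (chartAt (Cm ν) a.2) (chartAt (Cm ν) b.2) (D.h γ))
        (chartAt (Cm ν) a.2 (C.q a (f x)))).comp (fderiv ℂ (Q C f a e) (e x))).toLinearMap) =
        (fderiv ℂ (rep (chartAt (Cm ν) a.2) (chartAt (Cm ν) b.2) (D.h γ))
        (chartAt (Cm ν) a.2 (C.q a (f x)))).toLinearMap.comp
          (fderiv ℂ (Q C f a e) (e x)).toLinearMap := rfl
    rw [h4, ← AlternatingMap.compLinearMap_assoc, Cov.vol_comp]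
    have h5 : LinearMap.det (fderiv ℂ (rep (chartAt (Cm ν) a.2) (chartAt (Cm ν) b.2) (D.h γ))
        (chartAt (Cm ν) a.2 (C.q a (f x)))).toLinearMap = (pull C.LB hf).g a b x := by
      show _ = C.tr a b (f x)
      rw [C.tr_eq h]
      show _ = (jm (rep (chartAt (Cm ν) a.2) (chartAt (Cm ν) b.2) (D.h γ))
        (chartAt (Cm ν) a.2 (C.q a (f x)))).det
      rw [← LinearMap.det_toMatrix']
      congr 1
      ext i j
      rw [QN.jm_apply (rep_diff D (C.at_q ha) (Cov.at_hq hb h)), LinearMap.toMatrix'_apply]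
      rfl
    rw [h5]
    rfl

/-- a right inverse of the differential of `Q` -/
theorem exists_right_inv_Q (hf : ContMDiff 𝓘(ℂ, Cm n) 𝓘(ℂ, Cm d) ω f)
    (hs : Function.Surjective (mfderiv 𝓘(ℂ, Cm n) 𝓘(ℂ, Cm d) f x : Cm n →L[ℂ] Cm d))
    (ha : f x ∈ C.dom a) :
    ∃ B : Cm ν →L[ℂ] Cm n, (fderiv ℂ (Q C f a (chartAt (Cm n) x)) (chartAt (Cm n) x x)).comp B =
      ContinuousLinearMap.id ℂ (Cm ν) := by
  have he := at_chartAt (n := n) x
  have hc := at_chartAt (n := d) (f x)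
  set e := chartAt (Cm n) x with hedef
  set c := chartAt (Cm d) (f x) with hcdef
  obtain ⟨B₁, hB₁⟩ := Cov.exists_right_inv (C := C) ha hc
  have hr : ContDiffAt ℂ ω (fun u => c (f (e.symm u))) (e x) := rep_hol hf.contMDiffAt he hc
  have hs' : Function.Surjective (fderiv ℂ (fun u => c (f (e.symm u))) (e x)) := by
    intro w
    obtain ⟨v, hv⟩ := hs w
    refine ⟨v, ?_⟩
    rw [jmR_mulVec (hr.differentiableAt (by simp)) v, ← hv,
      mfderiv_eq_jacF (hf.contMDiffAt : ContMDiffAt 𝓘(ℂ, Cm n) 𝓘(ℂ, Cm d) ω f x) v]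
    rfl
  obtain ⟨B₂, hB₂⟩ := (fderiv ℂ (fun u => c (f (e.symm u))) (e x)).toLinearMap.exists_rightInverse_of_surjective
    (LinearMap.range_eq_top.2 hs')
  refine ⟨(LinearMap.toContinuousLinearMap B₂).comp B₁, ?_⟩
  have h1 : Q C f a e =ᶠ[𝓝 (e x)]
      (fun w => chartAt (Cm ν) a.2 (C.q a (c.symm w))) ∘ (fun u => c (f (e.symm u))) := by
    filter_upwards [nhds_at_map hf.continuous.continuousAt he hc] with u hu
    show chartAt (Cm ν) a.2 (C.q a (f (e.symm u))) =
      chartAt (Cm ν) a.2 (C.q a (c.symm (c (f (e.symm u)))))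
    rw [hu.2.2.left_inv]
  have h2 : DifferentiableAt ℂ (fun w => chartAt (Cm ν) a.2 (C.q a (c.symm w)))
      ((fun u => c (f (e.symm u))) (e x)) := by
    simp only [he.left_inv]
    exact (Cov.holo_q ha hc).differentiableAt (by simp)
  have h3 := fderiv_comp (e x) (f := fun u => c (f (e.symm u)))
    (g := fun w => chartAt (Cm ν) a.2 (C.q a (c.symm w))) h2 (hr.differentiableAt (by simp))
  rw [h1.fderiv_eq, h3]
  simp only [he.left_inv]
  rw [← hB₁]
  ext1 w
  simp only [ContinuousLinearMap.comp_apply]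
  congr 1
  exact congrArg (fun φ : Cm d →ₗ[ℂ] Cm d => φ (B₁ w)) hB₂

end Vale.Agent.P284.R3.H348
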