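import Vale.Agent.P284.H248.Fin
import Vale.Agent.P284.R3.H348.Lat

/-!
# P284: the fundamental group of a flat compact Kähler manifold of dimension `d` has an abelian
subgroup of index bounded in terms of `d`
-/

open scoped Manifold ContDiff ComplexOrder Topology Matrix
open Module
open Vale.Agent.P272.K Vale.Agent.P278.H837 Vale.Agent.P299.D Vale.Agent.P285.H281 Vale.Agent.P285.H766
  Vale.Agent.P284.H248

noncomputable section

namespace Vale.Agent.P284.R3.H348

section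
variable {V : Type} [NormedAddCommGroup V] [InnerProductSpace ℂ V] [FiniteDimensional ℂ V] {ν : ℕ}
  {Y : Type} [TopologicalSpace Y] [ChartedSpace (Cm ν) Y] {Γ : Type} [Group Γ]

theorem v_one (D : Dat V ν Y Γ) : D.v 1 = 0 := by
  have h := D.v_mul 1 1
  rw [mul_one, map_one] at h
  have h2 : D.v 1 = D.v 1 + D.v 1 := h
  simpa using h2

theorem v_conj (D : Dat V ν Y Γ) {l : Γ} (hl : D.A l = 1) (γ : Γ) :
    D.v (γ * l * γ⁻¹) = D.A γ (D.v l) := by
  have h1 : D.v (γ * l * γ⁻¹) = D.A (γ * l) (D.v γ⁻¹) + D.v (γ * l) := D.v_mul _ _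
  have h2 : D.v (γ * γ⁻¹) = D.A γ (D.v γ⁻¹) + D.v γ := D.v_mul _ _
  rw [mul_inv_cancel, v_one] at h2
  rw [h1, map_mul, hl, mul_one, D.v_mul γ l]
  calc D.A γ (D.v γ⁻¹) + (D.A γ (D.v l) + D.v γ) = D.A γ (D.v l) + (D.A γ (D.v γ⁻¹) + D.v γ) := by
        abel
    _ = D.A γ (D.v l) := by rw [← h2, add_zero]

theorem index_bound [Subsingleton Y] (D : Dat V ν Y Γ) (L : Subgroup Γ)
    (hL : ∀ γ, γ ∈ L ↔ D.A γ = 1 ∧ ∀ y, D.h γ y = y) (hfi : L.FiniteIndex)
    (hfin : ∀ R : ℝ, {l | l ∈ L ∧ ‖D.v l‖ ≤ R}.Finite)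
    (hR : ∃ R : ℝ, ∀ x : V, ∃ l ∈ L, ‖D.v l - x‖ ≤ R) :
    L.index ≤ (3 ^ (2 * finrank ℂ V)) ^ (2 * finrank ℂ V) := by
  have hV : FiniteDimensional ℝ V := FiniteDimensional.complexToReal V
  have hv : ∀ a ∈ L, ∀ b, D.v (a * b) = D.v b + D.v a := by
    intro a ha b
    rw [D.v_mul, ((hL a).1 ha).1]
    rfl
  let Λ₀ : AddSubgroup V :=
    { carrier := {z | ∃ l ∈ L, z = D.v l}
      zero_mem' := ⟨1, L.one_mem, by rw [v_one]⟩
      add_mem' := by
        rintro a b ⟨l, hl, ha⟩ ⟨m, hm, hb⟩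
        exact ⟨m * l, L.mul_mem hm hl, by rw [ha, hb, hv m hm]⟩
      neg_mem' := by
        rintro a ⟨l, hl, ha⟩
        refine ⟨l⁻¹, L.inv_mem hl, ?_⟩
        have h := hv l hl l⁻¹
        rw [mul_inv_cancel, v_one] at h
        rw [ha]
        exact (eq_neg_of_add_eq_zero_left h.symm).symm }
  let Λ : Submodule ℤ V := AddSubgroup.toIntSubmodule Λ₀
  have hmem : ∀ z, z ∈ Λ ↔ ∃ l ∈ L, z = D.v l := fun z => Iff.rfl
  have hd : DiscreteTopology Λ := by
    refine discrete_of_finite (((hfin 1).image fun l => D.v l).subset ?_)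
    rintro z ⟨hz, hz1⟩
    obtain ⟨l, hl, rfl⟩ := (hmem z).1 hz
    exact ⟨l, ⟨hl, hz1⟩, rfl⟩
  obtain ⟨R, hR⟩ := hR
  have hspan : Submodule.span ℝ (Λ : Set V) = ⊤ := span_of_cobounded (R := R) fun x => by
    obtain ⟨l, hl, h⟩ := hR x
    exact ⟨D.v l, (hmem _).2 ⟨l, hl, rfl⟩, h⟩
  let A : Γ → V →ₗ[ℝ] V := fun γ => ((D.A γ).toLinearEquiv.toLinearMap).restrictScalars ℝ
  have hA : ∀ γ z, A γ z = D.A γ z := fun _ _ => rfl
  have hA1 : ∀ γ, A γ = LinearMap.id → D.A γ = 1 := fun γ h => LinearIsometryEquiv.ext fun z => by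
    rw [← hA, h]
    rfl
  have hid : ∀ γ ∈ L, A γ = LinearMap.id := fun γ h => LinearMap.ext fun z => by
    rw [hA, ((hL γ).1 h).1]
    rfl
  obtain ⟨F, hF⟩ := exists_mod_three (Γ := Γ) Λ hspan A
    (fun γ δ => LinearMap.ext fun z => by
      rw [hA, map_mul]
      rfl)
    (hid 1 L.one_mem)
    (fun γ x hx => by
      obtain ⟨l, hl, rfl⟩ := (hmem x).1 hx
      refine (hmem _).2 ⟨γ * l * γ⁻¹, ?_, ?_⟩
      · refine (hL _).2 ⟨?_, fun y => Subsingleton.elim _ _⟩
        rw [map_mul, map_mul, ((hL l).1 hl).1, mul_one, ← map_mul, mul_inv_cancel, map_one]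
      · rw [hA, v_conj D ((hL l).1 hl).1])
    (fun γ => by
      obtain ⟨k, hk, -, hk'⟩ := Subgroup.exists_pow_mem_of_index_ne_zero hfi.index_ne_zero γ
      exact ⟨k, hk, hid _ hk'⟩)
  have hinj : Function.Injective fun q : Γ ⧸ L => F (Quotient.out q) := by
    intro p q h
    rw [← QuotientGroup.out_eq' p, ← QuotientGroup.out_eq' q]
    refine QuotientGroup.eq.2 ((hL _).2 ⟨hA1 _ (hF _ _ h), fun y => Subsingleton.elim _ _⟩)
  have h1 : L.index ≤ Nat.card (Fin (finrank ℝ V) → Fin (finrank ℝ V) → ZMod 3) :=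
    Nat.card_le_card_of_injective _ hinj
  rw [Nat.card_fun, Nat.card_fun, Nat.card_fin, Nat.card_zmod, finrank_real_of_complex] at h1
  exact h1

theorem Cov.exists_iso {n : ℕ} {X : Type} [TopologicalSpace X] [ChartedSpace (Cm n) X]
    {D : Dat V ν Y Γ} (C : Cov D n X) [SimplyConnectedSpace (V × Y)] (x : X) :
    Nonempty (FundamentalGroup X x ≃* Γᵐᵒᵖ) := by
  let _ : MulAction Γ (V × Y) :=
    { smul := act D
      one_smul := act_one D
      mul_smul := act_mul D }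
  have hq : IsQuotientCoveringMap C.p Γ :=
    { toIsQuotientMap := C.lh.isOpenMap.isQuotientMap C.lh.continuous C.surj
      continuous_const_smul := act_cont D
      apply_eq_iff_mem_orbit := by
        intro a b
        rw [eq_comm, C.fib]
        rfl
      disjoint := by
        intro a
        refine ⟨(C.loc a).source, (C.loc a).open_source.mem_nhds (C.mem_loc a), ?_⟩
        rintro γ ⟨b, ⟨b', hb', rfl⟩, hb⟩
        have h1 : C.loc a (act D γ b') = C.loc a b' := by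
          rw [C.loc_eq]
          exact C.p_act γ b'
        have h2 : act D γ b' = b' := (C.loc a).injOn hb hb' h1
        exact act_free D γ b' h2 }
  obtain ⟨a, rfl⟩ := C.surj x
  exact ⟨hq.fundamentalGroupEquiv (x := C.p a) ⟨a, rfl⟩⟩

theorem exists_of_mulOpposite {G H : Type*} [Group G] [Group H] (e : G ≃* Hᵐᵒᵖ) (L : Subgroup H)
    (hc : ∀ a ∈ L, ∀ b ∈ L, a * b = b * a) :
    ∃ A : Subgroup G, A.index = L.index ∧ ∀ a ∈ A, ∀ b ∈ A, a * b = b * a := by
  let f : G →* H :=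
    { toFun := fun g => (MulOpposite.unop (e g))⁻¹
      map_one' := by simp
      map_mul' := fun a b => by simp }
  have hf : Function.Injective f := by
    intro a b hab
    have : MulOpposite.unop (e a) = MulOpposite.unop (e b) := inv_injective hab
    exact e.injective (MulOpposite.unop_injective this)
  have hfs : Function.Surjective f := by
    intro y
    refine ⟨e.symm (MulOpposite.op y⁻¹), ?_⟩
    show (MulOpposite.unop (e (e.symm (MulOpposite.op y⁻¹))))⁻¹ = y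
    rw [e.apply_symm_apply, MulOpposite.unop_op, inv_inv]
  refine ⟨L.comap f, Subgroup.index_comap_of_surjective L hfs, fun a ha b hb => hf ?_⟩
  rw [map_mul, map_mul]
  exact hc _ ha _ hb

end

section
variable {d : ℕ} {Z : Type} [TopologicalSpace Z] [T2Space Z] [CompactSpace Z] [ConnectedSpace Z]
  [ChartedSpace (Cm d) Z] [IsManifold 𝓘(ℂ, Cm d) ω Z] {w : FormM d Z}

/-- the fundamental group of a flat compact Kähler manifold of dimension `d` has an abelian subgroup
of index at most `3^(4 d²)` -/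
theorem exists_index_of_flat (hw : IsKahler w) (hf : IsFlat w) (z : Z) :
    ∃ A : Subgroup (FundamentalGroup Z z), A.index ≠ 0 ∧ A.index ≤ (3 ^ (2 * d)) ^ (2 * d) ∧
      ∀ a ∈ A, ∀ b ∈ A, a * b = b * a := by
  obtain ⟨K, D, C, hd, hC, hprop⟩ := exists_cov_of_flat hw hf
  have hsub : Subsingleton (K.P.Y 1) := subsingleton_of_dim_zero hd
  obtain ⟨L, Γ₂, Γ₃, hfi, hL2, h32, -, hA2, hL, hcomm, hdec, hfree, hpd, hcc, hfinR, hR⟩ :=
    exists_split D hprop
  have : SimplyConnectedSpace (VK K × K.P.Y 1) :=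
    (homeoK K).symm.toHomotopyEquiv.simplyConnectedSpace
  have hd0 : K.P.d 0 = d := by
    have h4 := K.P.dsum
    rw [Fin.sum_univ_two] at h4
    omega
  have hLfi : L.FiniteIndex := by
    have h2 : Γ₂ ≤ L := fun γ hγ => (hL γ).2 ⟨hA2 γ hγ, fun y => Subsingleton.elim _ _⟩
    exact Subgroup.finiteIndex_of_le h2
  have h1 := index_bound D L hL hLfi hfinR hR
  have h2 : finrank ℂ (VK K) = d := by
    rw [finrank_euclideanSpace, Fintype.card_fin, hd0]
  rw [h2] at h1
  obtain ⟨e⟩ := Cov.exists_iso C z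
  obtain ⟨A, hA, hAc⟩ := exists_of_mulOpposite e L fun a ha b hb => hcomm a ha b (hL2 hb)
  exact ⟨A, by rw [hA]; exact hLfi.index_ne_zero, by rw [hA]; exact h1, hAc⟩

end

end Vale.Agent.P284.R3.H348
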