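import Vale.Agent.P284.H248.Lower
import Vale.Agent.P284.R3.H348.Pull

/-!
# P284: invariant pluricanonical forms on `Y` with independent quotients near a given point;
`κ(f^*L) ≥ ν`
-/

open scoped Manifold ContDiff Topology
open Filter Set
open Vale.Agent.P272.K Vale.Agent.P272.KOD Vale.Agent.P285.H281 Vale.Agent.P285.H766
  Vale.Agent.P284.H248
open Vale.Agent.P272.K.QN (jm)

noncomputable section

namespace Vale.Agent.P284.R3.H348

section jets
variable {V : Type} [NormedAddCommGroup V] [InnerProductSpace ℂ V] {ν : ℕ} {Y : Type}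
  [TopologicalSpace Y] [ChartedSpace (Cm ν) Y] [IsManifold 𝓘(ℂ, Cm ν) ω Y]
  {Γ : Type} [Group Γ] {D : Dat V ν Y Γ}

/-- invariant forms near a given point (proof of `Cov.lower`) -/
theorem jets [ConnectedSpace Y] {K : Subgroup Γ} [K.Normal] [K.FiniteIndex] {m : ℕ}
    (hm : 1 ≤ m) (s : Fin (ν + 1) → PSec ν m Y) (hs : ∀ i, ∀ κ ∈ K, PInv (D.h κ) (s i)) (y₀ : Y)
    (hj : ∀ e : Chart ν Y, At e y₀ → (s 0).coeff e (e y₀) ≠ 0 ∧ (Matrix.of fun i j : Fin ν =>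
        dz j (fun z => (s i.succ).coeff e z / (s 0).coeff e z) (e y₀)).det ≠ 0)
    {W : Set (Cm ν)} (hW : W ∈ 𝓝 (chartAt (Cm ν) y₀ y₀)) :
    ∃ M : ℕ, 1 ≤ M ∧ ∃ FF : Fin (ν + 1) → PSec ν M Y, (∀ i γ, PInv (D.h γ) (FF i)) ∧
      ∃ w ∈ W, w ∈ (chartAt (Cm ν) y₀).target ∧ (FF 0).coeff (chartAt (Cm ν) y₀) w ≠ 0 ∧
        LinearIndependent ℂ fun j : Fin ν => fderiv ℂ (fun w =>
          (FF j.succ).coeff (chartAt (Cm ν) y₀) w / (FF 0).coeff (chartAt (Cm ν) y₀) w) w := by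
  classical
  set c : Chart ν Y := chartAt (Cm ν) y₀ with hc
  have hcy : At c y₀ := at_chart y₀
  have hca : c ∈ atlas (Cm ν) Y := hcy.1
  obtain ⟨h0, hdet⟩ := hj c hcy
  set N := Nat.card (Γ ⧸ K) with hN
  have hN1 : 1 ≤ N := Nat.card_pos
  letI : Fintype (Γ ⧸ K) := Fintype.ofFinite _
  have hNc : (Finset.univ : Finset (Γ ⧸ K)).card = N := by
    rw [Finset.card_univ, hN, Nat.card_eq_fintype_card]
  -- the functions
  set f : Fin ν → Cm ν → ℂ := fun i w => (s i.succ).coeff c w / (s 0).coeff c w with hf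
  set F₀ : PSec ν (m * N) Y := sym D K (s 0) (s 0) N with hF₀
  set F : Fin ν → ℕ → PSec ν (m * N) Y := fun i j => sym D K (s 0) (s i.succ) j with hF
  set b : Fin ν → ℕ → Cm ν → ℂ := fun i j w => (F i j).coeff c w / F₀.coeff c w with hb
  have hlead : ∀ (t : PSec ν m Y) w, (sym D K (s 0) t N).coeff c w =
      ∏ q : Γ ⧸ K, (tw D (Quotient.out q) (s 0)).coeff c w := by
    intro t w
    have := pol_lead (Finset.univ : Finset (Γ ⧸ K))
      (fun q => (tw D (Quotient.out q) (s 0)).coeff c w)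
      (fun q => (tw D (Quotient.out q) t).coeff c w)
    rw [hNc] at this
    exact this
  -- first open set
  have hfan : ∀ w ∈ c.target, (s 0).coeff c w ≠ 0 → ∀ i, ContDiffAt ℂ ω (f i) w :=
    fun w hw hw0 i => (coeff_analytic (s i.succ) hca hw).contDiffAt.div
      (coeff_analytic (s 0) hca hw).contDiffAt hw0
  have hW1 : ∀ᶠ w in 𝓝 (c y₀), (w ∈ c.target ∧ w ∈ W) ∧
      (s 0).coeff c w ≠ 0 ∧ (Matrix.of fun i j : Fin ν => dz j (f i) w).det ≠ 0 := by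
    have e1 : ∀ᶠ w in 𝓝 (c y₀), w ∈ W := hW
    have e2 : ∀ᶠ w in 𝓝 (c y₀), (s 0).coeff c w ≠ 0 :=
      (coeff_analytic (s 0) hca hcy.mem_target).continuousAt.eventually_ne h0
    have e3 : ∀ᶠ w in 𝓝 (c y₀), (Matrix.of fun i j : Fin ν => dz j (f i) w).det ≠ 0 := by
      have h1 : ContDiffAt ℂ ω (fun w => fun i => f i w) (c y₀) :=
        contDiffAt_pi.2 fun i => hfan _ hcy.mem_target h0 i
      have h2 : ContDiffAt ℂ ω (fun w => (jm (fun w => fun i => f i w) w).det) (c y₀) :=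
        P285.H266.cd_det fun i j => QN.jm_holo h1 i j
      exact h2.continuousAt.eventually_ne hdet
    filter_upwards [e1, e2, e3, hcy.nhds_target] with w g1 g2 g3 g4
    exact ⟨⟨g4, g1⟩, g2, g3⟩
  obtain ⟨W₁, hW₁, hW₁o, hW₁y⟩ := eventually_nhds_iff.1 hW1
  -- second open set: the translates have no zeros
  obtain ⟨W₂, hW₂, hW₂o, hW₂n, hW₂t⟩ := shrink (t := fun q : Γ ⧸ K => tw D (Quotient.out q) (s 0))
    (fun q => tw_ne_zero hcy h0) hca hW₁o ⟨_, hW₁y⟩ (fun w hw => (hW₁ w hw).1.1) Finset.univ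
  have hF₀ne : ∀ w ∈ W₂, F₀.coeff c w ≠ 0 := by
    intro w hw
    rw [hF₀, hlead]
    exact Finset.prod_ne_zero_iff.2 fun q _ => hW₂t q (Finset.mem_univ q) w hw
  have hW₂t' : ∀ w ∈ W₂, w ∈ c.target := fun w hw => (hW₁ w (hW₂ hw)).1.1
  have hs0 : ∀ w ∈ W₂, (s 0).coeff c w ≠ 0 := fun w hw => (hW₁ w (hW₂ hw)).2.1
  have hfd : ∀ i, DifferentiableOn ℂ (f i) W₂ := fun i w hw =>
    ((hfan w (hW₂t' w hw) (hs0 w hw) i).differentiableAt (by simp)).differentiableWithinAt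
  have hban : ∀ i j, ∀ w ∈ W₂, ContDiffAt ℂ ω (b i j) w := fun i j w hw =>
    (coeff_analytic (F i j) hca (hW₂t' w hw)).contDiffAt.div
      (coeff_analytic F₀ hca (hW₂t' w hw)).contDiffAt (hF₀ne w hw)
  have hbd : ∀ i j, DifferentiableOn ℂ (b i j) W₂ := fun i j w hw =>
    ((hban i j w hw).differentiableAt (by simp)).differentiableWithinAt
  have hbN : ∀ i, ∀ w ∈ W₂, b i N w = 1 := by
    intro i w hw
    have h1 : (F i N).coeff c w = F₀.coeff c w := (hlead (s i.succ) w).trans (hlead (s 0) w).symm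
    rw [hb]
    simp only [h1]
    exact div_self (hF₀ne w hw)
  have hroot : ∀ i, ∀ w ∈ W₂, Qk N (b i) (f i) 0 w = 0 := by
    intro i w hw
    have hA : At c (c.symm w) := At.of_target hca (hW₂t' w hw)
    have hout : Quotient.out ((1 : Γ) : Γ ⧸ K) ∈ K := by
      rw [← QuotientGroup.eq_one_iff, QuotientGroup.out_eq', QuotientGroup.mk_one]
    have h1 : ∀ j, (tw D (Quotient.out ((1 : Γ) : Γ ⧸ K)) (s j)).coeff c w = (s j).coeff c w := by
      intro j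
      have := tw_inv_eq (e := c) (y := c.symm w) (hs j _ hout) hA
      rwa [c.right_inv (hW₂t' w hw)] at this
    have h2 := pol_eval (S := (Finset.univ : Finset (Γ ⧸ K)))
      (a := fun q => (tw D (Quotient.out q) (s 0)).coeff c w)
      (b := fun q => (tw D (Quotient.out q) (s i.succ)).coeff c w) (f := f i w)
      (c := ((1 : Γ) : Γ ⧸ K)) (Finset.mem_univ _) (by
        simp only [h1, hf]
        rw [mul_div_cancel₀ _ (hs0 w hw), sub_self])
    rw [hNc] at h2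
    unfold Qk
    have h3 : ∀ j ∈ Finset.range (N + 1), ((j.descFactorial 0 : ℕ) : ℂ) * b i j w * f i w ^ (j - 0) =
        (F₀.coeff c w)⁻¹ * ((F i j).coeff c w * f i w ^ j) := by
      intro j _
      simp only [hb, Nat.descFactorial_zero, Nat.cast_one, one_mul, Nat.sub_zero]
      rw [div_eq_mul_inv]
      ring
    rw [Finset.sum_congr rfl h3, ← Finset.mul_sum]
    have h4 : ∑ j ∈ Finset.range (N + 1), (F i j).coeff c w * f i w ^ j = 0 := h2
    rw [h4, mul_zero]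
  obtain ⟨W₃, hW₃, hW₃o, ⟨w₁, hw₁⟩, hspan⟩ := exists_mem_span_family hW₂o hW₂n hbd hfd hbN hroot
  have hw₁2 := hW₃ hw₁
  have hw₁1 := hW₂ hw₁2
  have hli : LinearIndependent ℂ fun i => fderiv ℂ (f i) w₁ :=
    linInd_of_det (fun i => (hfan w₁ (hW₂t' w₁ hw₁2) (hs0 w₁ hw₁2) i).differentiableAt (by simp))
      (hW₁ w₁ hw₁1).2.2
  obtain ⟨idx, hidx⟩ := exists_linInd_of_span (J := Fin ν × Fin (N + 1)) hli
    (fun p => fderiv ℂ (b p.1 p.2) w₁) (fun i => by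
      refine Submodule.span_mono ?_ (hspan w₁ hw₁ i)
      rintro _ ⟨j, rfl⟩
      exact ⟨(i, j), rfl⟩)
  refine ⟨m * N, Nat.mul_pos hm hN1, Fin.cons F₀ fun k => F (idx k).1 (idx k).2, ?_, w₁,
    (hW₁ w₁ hw₁1).1.2, hW₂t' w₁ hw₁2, hF₀ne w₁ hw₁2, hidx⟩
  intro i γ
  refine Fin.cases ?_ (fun k => ?_) i
  · exact sym_inv (hs 0) (hs 0) N γ
  · exact sym_inv (hs 0) (hs _) _ γ

end jets

section X
variable {V : Type} [NormedAddCommGroup V] [InnerProductSpace ℂ V] {ν : ℕ} {Y : Type}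
  [TopologicalSpace Y] [ChartedSpace (Cm ν) Y] {Γ : Type} [Group Γ] {D : Dat V ν Y Γ}
  {d : ℕ} {Z : Type} [TopologicalSpace Z] [ChartedSpace (Cm d) Z] [IsManifold 𝓘(ℂ, Cm d) ω Z]
  {C : Cov D d Z}
  {n : ℕ} {X : Type} [TopologicalSpace X] [ChartedSpace (Cm n) X] [IsManifold 𝓘(ℂ, Cm n) ω X]
  {f : X → Z} [IsManifold 𝓘(ℂ, Cm ν) ω Y]

/-- `κ(f^*L) ≥ ν` from invariant forms on `Y` with independent quotients near every point -/
theorem iitaka_pull (hf : ContMDiff 𝓘(ℂ, Cm n) 𝓘(ℂ, Cm d) ω f) {x₀ : X}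
    (hs : Function.Surjective (mfderiv 𝓘(ℂ, Cm n) 𝓘(ℂ, Cm d) f x₀ : Cm n →L[ℂ] Cm d))
    {a : V × Y} (ha : C.p a = f x₀)
    (hJ : ∀ W ∈ 𝓝 (chartAt (Cm ν) a.2 a.2), ∃ M : ℕ, 1 ≤ M ∧ ∃ FF : Fin (ν + 1) → PSec ν M Y,
      (∀ i γ, PInv (D.h γ) (FF i)) ∧
      ∃ w ∈ W, w ∈ (chartAt (Cm ν) a.2).target ∧ (FF 0).coeff (chartAt (Cm ν) a.2) w ≠ 0 ∧
        LinearIndependent ℂ fun j : Fin ν => fderiv ℂ (fun w =>
          (FF j.succ).coeff (chartAt (Cm ν) a.2) w / (FF 0).coeff (chartAt (Cm ν) a.2) w) w) :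
    IitakaGE (pull C.LB hf) ν := by
  have he := Vale.Agent.P299.H956.at_chartAt (n := n) x₀
  set e := chartAt (Cm n) x₀ with hedef
  set c := chartAt (Cm ν) a.2 with hcdef
  have hxa : f x₀ ∈ C.dom a := by rw [← ha]; exact C.p_mem_dom a
  have hq : C.q a (f x₀) = a.2 := by rw [← ha, Cov.q, C.σ_p_self]
  obtain ⟨B, hB⟩ := exists_right_inv_Q (C := C) (a := a) hf hs hxa
  have hQ : ContDiffAt ℂ ω (Q C f a e) (e x₀) := holo_Q hf hxa he
  have hQ0 : Q C f a e (e x₀) = c a.2 := by rw [Q_self he, hq]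
  have hQ' : ContDiffAt ℂ ω (fderiv ℂ (Q C f a e)) (e x₀) := hQ.fderiv_right (m := ω) (by exact le_top)
  -- the neighbourhood of `e x₀`
  have hU : ∀ᶠ u in 𝓝 (e x₀), IsUnit ((fderiv ℂ (Q C f a e) u).comp B : Cm ν →L[ℂ] Cm ν) := by
    have h1 : ContinuousAt (fun u => ((fderiv ℂ (Q C f a e) u).comp B : Cm ν →L[ℂ] Cm ν)) (e x₀) :=
      (hQ'.continuousAt.clm_comp continuousAt_const)
    refine h1.eventually (Units.isOpen.mem_nhds ?_)
    show IsUnit ((fderiv ℂ (Q C f a e) (e x₀)).comp B : Cm ν →L[ℂ] Cm ν)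
    rw [hB]
    exact isUnit_one
  have hN : {u : Cm n | u ∈ e.target ∧ f (e.symm u) ∈ C.dom a ∧
      IsUnit ((fderiv ℂ (Q C f a e) u).comp B : Cm ν →L[ℂ] Cm ν)} ∈ 𝓝 (e x₀) := by
    filter_upwards [he.nhds_target, ev_f hf ((C.isOpen_dom a).mem_nhds hxa) he, hU] with u h1 h2 h3
    exact ⟨h1, h2, h3⟩
  have hsurj : (fderiv ℂ (Q C f a e) (e x₀)).range = ⊤ := by
    rw [LinearMap.range_eq_top]
    intro w
    exact ⟨B w, congrArg (fun φ : Cm ν →L[ℂ] Cm ν => φ w) hB⟩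
  have hmap := (hQ.hasStrictFDerivAt (by simp)).map_nhds_eq_of_surj hsurj
  have hW : Q C f a e '' {u : Cm n | u ∈ e.target ∧ f (e.symm u) ∈ C.dom a ∧
      IsUnit ((fderiv ℂ (Q C f a e) u).comp B : Cm ν →L[ℂ] Cm ν)} ∈ 𝓝 (c a.2) := by
    rw [← hQ0, ← hmap]
    exact image_mem_map hN
  obtain ⟨M, hM, FF, hFF, w, ⟨u, ⟨hut, hud, huu⟩, rfl⟩, hwt, h0, hli⟩ := hJ _ hW
  have hx : At e (e.symm u) := At.of_target he.1 hut
  have hex : e (e.symm u) = u := e.right_inv hut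
  refine ⟨M, hM, fun i => pullSec hf (C.sec (FF i) (hFF i)), a, e, e.symm u, hx, hud, h0, ?_⟩
  obtain ⟨B', hB'⟩ : ∃ B' : Cm ν →L[ℂ] Cm n, (fderiv ℂ (Q C f a e) u).comp B' =
      ContinuousLinearMap.id ℂ (Cm ν) := by
    obtain ⟨v, hv⟩ := huu
    refine ⟨B.comp (↑(v⁻¹) : Cm ν →L[ℂ] Cm ν), ?_⟩
    rw [← ContinuousLinearMap.comp_assoc, ← hv]
    exact v.mul_inv
  have hQu : ContDiffAt ℂ ω (Q C f a e) u := by
    have := holo_Q (C := C) (a := a) hf hud hx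
    rwa [hex] at this
  have h1 : ∀ j : Fin ν, fderiv ℂ (fun u => ((pullSec hf (C.sec (FF j.succ) (hFF j.succ))).f a
      (e.symm u)) / ((pullSec hf (C.sec (FF 0) (hFF 0))).f a (e.symm u))) (e (e.symm u)) =
      (fderiv ℂ (fun w => (FF j.succ).coeff c w / (FF 0).coeff c w) (Q C f a e u)).comp
        (fderiv ℂ (Q C f a e) u) := by
    intro j
    rw [hex]
    have g : ∀ i, ContDiffAt ℂ ω ((FF i).coeff c) (Q C f a e u) := fun i =>
      (coeff_analytic (FF i) (chart_mem_atlas (Cm ν) a.2) hwt).contDiffAt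
    have h2 : DifferentiableAt ℂ (fun w => (FF j.succ).coeff c w / (FF 0).coeff c w)
        (Q C f a e u) := ((g j.succ).div (g 0) h0).differentiableAt (by simp)
    exact fderiv_comp u (f := Q C f a e)
      (g := fun w => (FF j.succ).coeff c w / (FF 0).coeff c w) h2 (hQu.differentiableAt (by simp))
  rw [funext h1]
  let T : (Cm n →L[ℂ] ℂ) →ₗ[ℂ] (Cm ν →L[ℂ] ℂ) :=
    { toFun := fun φ => φ.comp B'
      map_add' := fun φ ψ => by ext; rfl
      map_smul' := fun r φ => by ext; rfl }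
  refine LinearIndependent.of_comp T ?_
  have h5 : (T ∘ fun j : Fin ν => (fderiv ℂ (fun w =>
      (FF j.succ).coeff c w / (FF 0).coeff c w) (Q C f a e u)).comp (fderiv ℂ (Q C f a e) u)) =
      fun j : Fin ν => fderiv ℂ (fun w => (FF j.succ).coeff c w / (FF 0).coeff c w)
        (Q C f a e u) := by
    funext j
    show ((fderiv ℂ _ _).comp (fderiv ℂ (Q C f a e) u)).comp B' = _
    rw [ContinuousLinearMap.comp_assoc, hB', ContinuousLinearMap.comp_id]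
  rw [h5]
  exact hli

/-- the morphism `f^*L → Ω^ν` is not zero -/
theorem morf_nonzero (hf : ContMDiff 𝓘(ℂ, Cm n) 𝓘(ℂ, Cm d) ω f) {x₀ : X}
    (hs : Function.Surjective (mfderiv 𝓘(ℂ, Cm n) 𝓘(ℂ, Cm d) f x₀ : Cm n →L[ℂ] Cm d)) :
    (morf C hf).Nonzero := by
  obtain ⟨a, ha⟩ := C.surj (f x₀)
  have he := Vale.Agent.P299.H956.at_chartAt (n := n) x₀
  have hxa : f x₀ ∈ C.dom a := by rw [← ha]; exact C.p_mem_dom a
  refine ⟨a, chartAt (Cm n) x₀, x₀, he, hxa, fun h0 => ?_⟩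
  obtain ⟨B, hB⟩ := exists_right_inv_Q (C := C) (a := a) hf hs hxa
  have h1 := congrArg (fun φ : (Cm n) [⋀^Fin ν]→ₗ[ℂ] ℂ =>
    φ (fun i => B (Pi.single i 1))) h0
  simp only [morf, AlternatingMap.compLinearMap_apply, AlternatingMap.zero_apply] at h1
  have h2 : ∀ i : Fin ν, (fderiv ℂ (Q C f a (chartAt (Cm n) x₀)) (chartAt (Cm n) x₀ x₀)).toLinearMap
      (B (Pi.single i 1)) = Pi.single i 1 := fun i =>
    congrArg (fun φ : Cm ν →L[ℂ] Cm ν => φ (Pi.single i 1)) hB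
  simp only [h2] at h1
  have h3 : Cov.vol ν (fun i => Pi.single i 1) = 1 := by
    have h4 : (Matrix.of fun i j => (Pi.single i (1 : ℂ) : Cm ν) j) =
        (1 : Matrix (Fin ν) (Fin ν) ℂ) := by
      ext i j
      simp [Matrix.one_apply, Pi.single_apply, eq_comm]
    show Matrix.det (Matrix.of fun i j => (Pi.single i (1 : ℂ) : Cm ν) j) = 1
    rw [h4, Matrix.det_one]
  rw [h3] at h1
  exact one_ne_zero h1

/-- `ν ≤ n` -/
theorem le_dim_pull (hf : ContMDiff 𝓘(ℂ, Cm n) 𝓘(ℂ, Cm d) ω f) {x₀ : X}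
    (hs : Function.Surjective (mfderiv 𝓘(ℂ, Cm n) 𝓘(ℂ, Cm d) f x₀ : Cm n →L[ℂ] Cm d))
    (C : Cov D d Z) : ν ≤ n := by
  obtain ⟨a, ha⟩ := C.surj (f x₀)
  have hxa : f x₀ ∈ C.dom a := by rw [← ha]; exact C.p_mem_dom a
  obtain ⟨B, hB⟩ := exists_right_inv_Q (C := C) (a := a) hf hs hxa
  have hinj : Function.Injective B := by
    intro u v huv
    have h1 := congrArg (fun φ : Cm ν →L[ℂ] Cm ν => φ u) hB
    have h2 := congrArg (fun φ : Cm ν →L[ℂ] Cm ν => φ v) hB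
    simp only [ContinuousLinearMap.comp_apply, ContinuousLinearMap.id_apply] at h1 h2
    rw [← h1, ← h2, huv]
  have h3 := LinearMap.finrank_le_finrank_of_injective (f := B.toLinearMap) hinj
  simpa using h3

end X

end Vale.Agent.P284.R3.H348
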