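import Vale.Agent.P284.H248.Fin
import Vale.Agent.P284.R3.H348.Low
import Vale.Agent.P284.R3.H348.Curv
import Vale.Agent.P284.R3.H348.Grp2
import Vale.Agent.P284.R3.H348.Fg

/-!
# P284: special manifolds with dominant maps to manifolds of nonpositive holomorphic sectional
curvature
-/

open scoped Manifold ContDiff ComplexOrder Topology Matrix
open Filter Set
open Complex Vale.Agent.P272.K Vale.Agent.P272.KOD Vale.Agent.P272.K.INT Vale.Agent.P278.H837
  Vale.Agent.P299.D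
open Vale.Agent.P285.H281 Vale.Agent.P285.H766 Vale.Agent.P284.H248
open Vale.Agent.P285.H591 (FlatSplit)
open Vale.Agent.P285.H591.C7 (BF exists_cov parEnd_of_split isProjF_of_split ke_factor)

noncomputable section

namespace Vale.Agent.P284.R3.H348

section
variable {V : Type} [NormedAddCommGroup V] [InnerProductSpace ℂ V] {ν : ℕ} {Y : Type}
  [TopologicalSpace Y] [ChartedSpace (Cm ν) Y] [IsManifold 𝓘(ℂ, Cm ν) ω Y]
  {Γ : Type} [Group Γ] {D : Dat V ν Y Γ}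

/-- invariant forms near every point of `Y` -/
theorem exists_jets [FiniteDimensional ℂ V] [T2Space Y] [ConnectedSpace Y]
    (hprop : ∀ K : Set Y, IsCompact K →
      {f : Y → Y | (∃ γ, f = D.h γ) ∧ (f '' K ∩ K).Nonempty}.Finite) (y₀ : Y)
    {W : Set (Cm ν)} (hW : W ∈ 𝓝 (chartAt (Cm ν) y₀ y₀)) :
    ∃ M : ℕ, 1 ≤ M ∧ ∃ FF : Fin (ν + 1) → PSec ν M Y, (∀ i γ, PInv (D.h γ) (FF i)) ∧
      ∃ w ∈ W, w ∈ (chartAt (Cm ν) y₀).target ∧ (FF 0).coeff (chartAt (Cm ν) y₀) w ≠ 0 ∧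
        LinearIndependent ℂ fun j : Fin ν => fderiv ℂ (fun w =>
          (FF j.succ).coeff (chartAt (Cm ν) y₀) w / (FF 0).coeff (chartAt (Cm ν) y₀) w) w := by
  obtain ⟨L, Γ₂, Γ₃, hfi, hL2, h32, -, hA2, hL, -, hdec, hfree, hpd, hcc, -, R, hR⟩ :=
    exists_split D hprop
  let a : FreeAct ν Y D.η Γ₃ :=
    { h := fun g => D.h g
      one := D.h_one
      mul := fun γ δ y => D.h_mul γ δ y
      iso := fun γ => D.iso γ
      free := fun γ y h => Subtype.ext (hfree γ γ.2 y h)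
      proper := fun K hK => by
        have h1 := hpd K hK
        refine Set.Finite.of_finite_image (f := Subtype.val) (h1.subset ?_)
          (Subtype.val_injective.injOn)
        rintro _ ⟨g, hg, rfl⟩
        exact ⟨g.2, hg⟩
      cocompact := by
        obtain ⟨K, hK, hK'⟩ := hcc
        refine ⟨K, hK, fun y => ?_⟩
        obtain ⟨g, hg, hgK⟩ := hK' y
        exact ⟨⟨g, hg⟩, hgK⟩ }
  obtain ⟨m, hm, hjet⟩ := exists_inv_jet D.kahler.toIsHermitian D.ke a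
  obtain ⟨s, hs, hj⟩ := hjet y₀
  have hK : ∀ i, ∀ κ ∈ Γ₂.normalCore, PInv (D.h κ) (s i) := by
    intro i κ hκ
    obtain ⟨l, hl, g, hg, rfl⟩ := hdec κ (Γ₂.normalCore_le hκ)
    have h1 : D.h (l * g) = D.h g := by
      funext y
      rw [D.h_mul]
      exact ((hL l).1 hl).2 _
    rw [h1]
    exact hs i ⟨g, hg⟩
  exact jets hm s hK y₀ hj hW

variable {d : ℕ} {Z : Type} [TopologicalSpace Z] [ChartedSpace (Cm d) Z]
  [IsManifold 𝓘(ℂ, Cm d) ω Z]
  {n : ℕ} {X : Type} [TopologicalSpace X] [ChartedSpace (Cm n) X] [IsManifold 𝓘(ℂ, Cm n) ω X]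
  [T2Space X] [CompactSpace X] {wX : FormM n X} {f : X → Z}

/-- if a special manifold has a dominant map to `Z` then `ν = 0` -/
theorem dim_zero_pull [FiniteDimensional ℂ V] [T2Space Y] [ConnectedSpace Y] (C : Cov D d Z)
    (hprop : ∀ K : Set Y, IsCompact K →
      {f : Y → Y | (∃ γ, f = D.h γ) ∧ (f '' K ∩ K).Nonempty}.Finite)
    (hwX : IsKahler wX) (hsp : Special n X) (hf : ContMDiff 𝓘(ℂ, Cm n) 𝓘(ℂ, Cm d) ω f) {x₀ : X}
    (hs : Function.Surjective (mfderiv 𝓘(ℂ, Cm n) 𝓘(ℂ, Cm d) f x₀ : Cm n →L[ℂ] Cm d)) :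
    ν = 0 := by
  by_contra hν
  obtain ⟨a, ha⟩ := C.surj (f x₀)
  exact hsp ν (Nat.one_le_iff_ne_zero.2 hν) (le_dim_pull hf hs C) (pull C.LB hf)
    ⟨iitaka_pull hf hs ha fun W hW => exists_jets hprop a.2 hW,
      not_iitaka hwX (wt_Wt hf) (cv_psd hf) (cv_rank hf)⟩ (morf C hf) (morf_nonzero hf hs)

end

section
variable {n : ℕ} {X : Type} [TopologicalSpace X] [ChartedSpace (Cm n) X]
  [IsManifold 𝓘(ℂ, Cm n) ω X] [T2Space X] [CompactSpace X] {wX : FormM n X}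
  {d : ℕ} {Z : Type} [TopologicalSpace Z] [T2Space Z] [CompactSpace Z] [ConnectedSpace Z]
  [ChartedSpace (Cm d) Z] [IsManifold 𝓘(ℂ, Cm d) ω Z] {w : FormM d Z} {f : X → Z}

/-- the target of a dominant map from a special manifold is flat -/
theorem flat_of_special_map (hwX : IsKahler wX) (hsp : Special n X)
    (hf : ContMDiff 𝓘(ℂ, Cm n) 𝓘(ℂ, Cm d) ω f) {x₀ : X}
    (hs : Function.Surjective (mfderiv 𝓘(ℂ, Cm n) 𝓘(ℂ, Cm d) f x₀ : Cm n →L[ℂ] Cm d))
    (hw : IsKahler w) (hR : NonposHSC w) : IsFlat w := by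
  rcases Nat.eq_zero_or_pos d with h0 | hd0
  · subst h0
    intro e x hx i
    exact i.elim0
  obtain ⟨k, hk, p, χ, hχ, hs1, -, hke, hs', -, hp⟩ :=
    Vale.Agent.P285.H716.NN.exists_semi_chi hd0 hw hR isClosedForm_zero
      (fun e x _ => Matrix.PosSemidef.zero)
  obtain ⟨K⟩ := exists_cov hχ hs1 (parEnd_of_split hχ hs1) (isProjF_of_split hχ hs1)
  have hke' := ke_factor K hχ hs1 fun e x hx => by
    rw [hke e x hx]
    exact add_zero _
  obtain ⟨D, C, -, hprop⟩ := exists_covK K hχ hke'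
  have hd : K.P.d 1 = 0 := dim_zero_pull C hprop hwX hsp hf hs
  intro e x hx i j k l
  have h1 := eq_of_dim_zero K hχ hs1 hd e x hx
  have hχd : IsUnit (χ e (e x)).det := isUnit_iff_ne_zero.2 (hχ.posDef e x hx).det_pos.ne'
  have hwd : IsUnit (w e (e x)).det := isUnit_iff_ne_zero.2 (hw.posDef e x hx).det_pos.ne'
  have h2 := hp e x hx
  rw [h1] at h2
  have h3 : (w e (e x))⁻¹ * χ e (e x) = 1 := by
    have := congrArg (fun A => (χ e (e x))⁻¹ * A) h2
    simp only [← Matrix.mul_assoc, Matrix.nonsing_inv_mul _ hχd, Matrix.one_mul] at this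
    exact this
  have h4 : w e (e x) = p e (e x) := by
    rw [h1]
    calc w e (e x) = w e (e x) * ((w e (e x))⁻¹ * χ e (e x)) := by rw [h3, Matrix.mul_one]
      _ = χ e (e x) := by rw [← Matrix.mul_assoc, Matrix.mul_nonsing_inv _ hwd, Matrix.one_mul]
  have h5 := hs'.flat e x hx (Pi.single i 1) (by rw [h4, sub_self, Matrix.vecMul_zero]) j k l
  rw [Finset.sum_eq_single i (fun b _ hb => by rw [Pi.single_eq_of_ne hb, zero_mul])
    (fun h => absurd (Finset.mem_univ i) h), Pi.single_eq_same, one_mul] at h5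
  exact h5

end

section main
variable {n : ℕ} {X : Type} [TopologicalSpace X] [ChartedSpace (Cm n) X]
  [IsManifold 𝓘(ℂ, Cm n) ω X] [T2Space X] [CompactSpace X] [ConnectedSpace X] {wX : FormM n X}
  {ι : Type} [Finite ι] {d : ι → ℕ} {Z : ι → Type} [∀ i, TopologicalSpace (Z i)]
  [∀ i, T2Space (Z i)] [∀ i, CompactSpace (Z i)] [∀ i, ConnectedSpace (Z i)]
  [∀ i, ChartedSpace (Cm (d i)) (Z i)] [∀ i, IsManifold 𝓘(ℂ, Cm (d i)) ω (Z i)]
  {u : ∀ i, FormM (d i) (Z i)}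

theorem main (hwX : IsKahler wX) (hsp : Special n X) (hu : ∀ i, IsKahler (u i))
    (hR : ∀ i, NonposHSC (u i)) (f : ∀ i, C(X, Z i))
    (hf : ∀ i, ContMDiff 𝓘(ℂ, Cm n) 𝓘(ℂ, Cm (d i)) ω (f i))
    (hs : ∀ i, ∃ x, Function.Surjective
      (mfderiv 𝓘(ℂ, Cm n) 𝓘(ℂ, Cm (d i)) (f i) x : Cm n →L[ℂ] Cm (d i))) :
    (∀ i, IsFlat (u i)) ∧
    ∀ x : X, (VirtuallyAbelian (FundamentalGroup X x) ↔
      ∃ H : Subgroup (FundamentalGroup X x), H.FiniteIndex ∧
        ((⁅H, H⁆ ⊓ ⨅ i, (FundamentalGroup.map (f i) x).ker : Subgroup (FundamentalGroup X x)) :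
          Set (FundamentalGroup X x)).Finite) := by
  have h1 : ∀ i, IsFlat (u i) := fun i => by
    obtain ⟨x, hx⟩ := hs i
    exact flat_of_special_map hwX hsp (hf i) hx (hu i) (hR i)
  refine ⟨h1, fun x => ?_⟩
  exact virtuallyAbelian_iff (fg_pi1 (n := n) x) (fun i => fg_pi1 (n := d i) (f i x))
    (fun i => virtuallyAbelian_of_flat (hu i) (h1 i) (f i x))
    (fun i => FundamentalGroup.map (f i) x)

end main

end Vale.Agent.P284.R3.H348
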