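import Vale.Agent.P284.R3.H348.Main

/-!
# P284: compact Kähler manifolds of nonpositive holomorphic sectional curvature, dominant maps
-/

open scoped Manifold ContDiff
open Vale.Agent.P272.K Vale.Agent.P284.H248
open Vale.Agent.P299.H956 (rep_hol at_chartAt jmR jmR_mulVec mfderiv_eq_jacF jacF_eq)

namespace Vale.Agent.P284.R3.H348

/-- A compact connected complex manifold `Z` of dimension `d` with a Kähler metric `u` of nonpositive
holomorphic sectional curvature. -/
structure NPMfd where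
  d : ℕ
  Z : Type
  top : TopologicalSpace Z
  t2 : T2Space Z
  cpt : CompactSpace Z
  conn : ConnectedSpace Z
  ch : ChartedSpace (Cm d) Z
  mfd : IsManifold 𝓘(ℂ, Cm d) ω Z
  u : Chart d Z → Cm d → Matrix (Fin d) (Fin d) ℂ
  kahler : IsKahler u
  hsc : NonposHSC u

attribute [instance] NPMfd.top NPMfd.t2 NPMfd.cpt NPMfd.conn NPMfd.ch NPMfd.mfd

/-- The curvature of the Kähler metric vanishes. -/
def NPMfd.Flat (Z : NPMfd) : Prop :=
  ∀ e x, At e x → ∀ i j k l, curv (Z.u e) (e x) i j k l = 0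

/-- `Z` is a quotient of `ℂ^d` (surjective local biholomorphism `q`), with a group `Λ` of translations
leaving `q` invariant, which comes within the distance `R` of every point. -/
def NPMfd.TorusQuotient (Z : NPMfd) : Prop :=
  ∃ (q : Cm Z.d → Z.Z) (Λ : AddSubgroup (Cm Z.d)) (R : ℝ),
    IsLocalDiffeomorph 𝓘(ℂ, Cm Z.d) 𝓘(ℂ, Cm Z.d) ω q ∧ Function.Surjective q ∧
    (∀ l ∈ Λ, ∀ z, q (z + l) = q z) ∧ ∀ z, ∃ l ∈ Λ, ‖z - l‖ ≤ R

variable (n : ℕ) (X : Type) [TopologicalSpace X] [ChartedSpace (Cm n) X]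

/-- The differential of `f` at the point `x`, written in the preferred charts at `x` and `f x`, is
surjective. -/
def SubmersiveAt {Z : NPMfd} (f : X → Z.Z) (x : X) : Prop :=
  Function.Surjective (fderiv ℂ (fun z : Cm n =>
    chartAt (Cm Z.d) (f x) (f ((chartAt (Cm n) x).symm z))) (chartAt (Cm n) x x))

/-- A holomorphic map `f : X → Z` whose differential is surjective at some point. -/
structure DomMap (Z : NPMfd) where
  f : C(X, Z.Z)
  holo : ContMDiff 𝓘(ℂ, Cm n) 𝓘(ℂ, Cm Z.d) ω f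
  dom : ∃ x : X, SubmersiveAt n X f x

variable {n X}

/-- The common kernel of the homomorphisms `π₁(X) → π₁(Z i)` induced by the maps `f i`. -/
noncomputable def comKer {ι : Type} {Z : ι → NPMfd} (f : ∀ i, DomMap n X (Z i)) (x : X) :
    Subgroup (FundamentalGroup X x) := ⨅ i, (FundamentalGroup.map (f i).f x).ker

theorem DomMap.surj [IsManifold 𝓘(ℂ, Cm n) ω X] {Z : NPMfd} (F : DomMap n X Z) :
    ∃ x : X, Function.Surjective
      (mfderiv 𝓘(ℂ, Cm n) 𝓘(ℂ, Cm Z.d) F.f x : Cm n →L[ℂ] Cm Z.d) := by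
  obtain ⟨x, hx⟩ := F.dom
  refine ⟨x, fun w => ?_⟩
  obtain ⟨v, hv⟩ := hx w
  refine ⟨v, ?_⟩
  have hr : ContDiffAt ℂ ω (fun u => chartAt (Cm Z.d) (F.f x) (F.f ((chartAt (Cm n) x).symm u)))
      (chartAt (Cm n) x x) :=
    rep_hol F.holo.contMDiffAt (at_chartAt (n := n) x) (at_chartAt (n := Z.d) (F.f x))
  rw [← hv, jmR_mulVec (hr.differentiableAt (by simp)) v]
  exact mfderiv_eq_jacF
    (F.holo.contMDiffAt : ContMDiffAt 𝓘(ℂ, Cm n) 𝓘(ℂ, Cm Z.d) ω F.f x) v

end Vale.Agent.P284.R3.H348
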