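import Vale.Agent.P284.R3.H348.Tgt
import Vale.Agent.P284.R3.H348.Idx
import Vale.Agent.P284.R3.H348.Unif

/-!
# P284: all dominant maps from a special manifold to compact Kähler manifolds of nonpositive
holomorphic sectional curvature at once
-/

open scoped Manifold ContDiff
open Vale.Agent.P272.K Vale.Agent.P284.H248

namespace Vale.Agent.P284.R3.H348

section
variable (n : ℕ) (X : Type) [TopologicalSpace X] [ChartedSpace (Cm n) X]

/-- The common kernel of the homomorphisms `π₁(X, x) → π₁(Z)` induced by ALL holomorphic maps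
`f : X → Z`, with surjective differential at some point, to compact connected Kähler manifolds `Z` of
nonpositive holomorphic sectional curvature. -/
noncomputable def allKer (x : X) : Subgroup (FundamentalGroup X x) :=
  ⨅ (Z : NPMfd) (f : DomMap n X Z), (FundamentalGroup.map f.f x).ker

end

theorem index_comap_le {G T : Type*} [Group G] [Group T] (φ : G →* T) {A : Subgroup T}
    (hA : A.index ≠ 0) : (A.comap φ).index ≠ 0 ∧ (A.comap φ).index ≤ A.index := by
  have h1 : A.relIndex ⊤ ≠ 0 := by rwa [Subgroup.relIndex_top_right]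
  have h2 := Subgroup.relIndex_le_of_le_right (H := A) (le_top : φ.range ≤ ⊤) h1
  rw [Subgroup.relIndex_top_right] at h2
  rw [Subgroup.index_comap]
  refine ⟨fun h => h1 ?_, h2⟩
  exact Subgroup.relIndex_eq_zero_of_le_right le_top h

/-- a finitely generated group with a subgroup `K` which contains the commutator subgroup of a
subgroup of finite index is virtually abelian iff `K` meets the commutator subgroup of some subgroup
of finite index in a finite group -/
theorem virtuallyAbelian_iff_of_le {G : Type} [Group G] (hG : Group.FG G) {K : Subgroup G}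
    (hK : ∃ H : Subgroup G, H.FiniteIndex ∧ ⁅H, H⁆ ≤ K) :
    VirtuallyAbelian G ↔ ∃ H : Subgroup G, H.FiniteIndex ∧
      ((⁅H, H⁆ ⊓ K : Subgroup G) : Set G).Finite := by
  have h0 := virtuallyAbelian_iff (G := G) (ι := Empty) (T := fun _ => G) hG
    (fun i => i.elim) (fun i => i.elim) (fun i => i.elim)
  constructor
  · intro h
    obtain ⟨H, hfi, hH⟩ := h0.1 h
    refine ⟨H, hfi, hH.subset fun g hg => ⟨hg.1, ?_⟩⟩
    exact Subgroup.mem_iInf.2 fun i => i.elim
  · rintro ⟨H', hfi', hH'⟩
    obtain ⟨H₀, hfi₀, hH₀⟩ := hK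
    refine h0.2 ⟨H' ⊓ H₀, inferInstance, hH'.subset fun g hg => ⟨?_, ?_⟩⟩
    · exact Subgroup.commutator_mono inf_le_left inf_le_left hg.1
    · exact hH₀ (Subgroup.commutator_mono inf_le_right inf_le_right hg.1)

section
variable {n : ℕ} {X : Type} [TopologicalSpace X] [T2Space X] [CompactSpace X] [ConnectedSpace X]
  [ChartedSpace (Cm n) X] [IsManifold 𝓘(ℂ, Cm n) ω X]
  {w : Chart n X → Cm n → Matrix (Fin n) (Fin n) ℂ}

theorem DomMap.le_dim {Z : NPMfd} (F : DomMap n X Z) : Z.d ≤ n := by
  obtain ⟨x, hx⟩ := F.dom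
  set φ := (fderiv ℂ (fun z : Cm n =>
    chartAt (Cm Z.d) (F.f x) (F.f ((chartAt (Cm n) x).symm z))) (chartAt (Cm n) x x)).toLinearMap
    with hφ
  have h1 := LinearMap.finrank_range_le φ
  rw [LinearMap.range_eq_top.2 (show Function.Surjective φ from hx), finrank_top] at h1
  simpa using h1

theorem flat_of_domMap (hw : IsKahler w) (hX : Special n X) {Z : NPMfd} (F : DomMap n X Z) :
    IsFlat Z.u := by
  obtain ⟨x, hx⟩ := F.surj
  exact flat_of_special_map hw hX F.holo hx Z.kahler Z.hsc

/-- one subgroup of finite index of the fundamental group of a special manifold has abelian image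
under all dominant maps to compact Kähler manifolds of nonpositive holomorphic sectional curvature -/
theorem exists_uniform_subgroup (hw : IsKahler w) (hX : Special n X) (x : X) :
    ∃ H : Subgroup (FundamentalGroup X x), H.FiniteIndex ∧ ⁅H, H⁆ ≤ allKer n X x := by
  obtain ⟨H, hfi, hH⟩ := exists_uniform (fg_pi1 (n := n) x) ((3 ^ (2 * n)) ^ (2 * n))
  refine ⟨H, hfi, le_iInf fun Z => le_iInf fun F => ?_⟩
  obtain ⟨A, hA0, hAN, hAc⟩ := exists_index_of_flat Z.kahler (flat_of_domMap hw hX F) (F.f x)
  obtain ⟨h1, h2⟩ := index_comap_le (FundamentalGroup.map F.f x) hA0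
  have hd := F.le_dim
  have h3 : (3 ^ (2 * Z.d)) ^ (2 * Z.d) ≤ (3 ^ (2 * n)) ^ (2 * n) :=
    (Nat.pow_le_pow_left (Nat.pow_le_pow_right (by norm_num) (by omega)) _).trans
      (Nat.pow_le_pow_right (pow_pos (by norm_num) _) (by omega))
  have hle := hH _ h1 (h2.trans (hAN.trans h3))
  rw [Subgroup.commutator_le]
  intro a ha b hb
  rw [MonoidHom.mem_ker, map_commutatorElement, commutatorElement_eq_one_iff_mul_comm]
  exact hAc _ (hle ha) _ (hle hb)

end

end Vale.Agent.P284.R3.H348
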